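import Vale.Agent.P073Z.KSELFin
import Mathlib.MeasureTheory.Function.Jacobian

/-!
# Selection of compact sets: types of rank at most two, and the set of invertible derivatives
-/

open Set Metric Topology Filter MeasureTheory
open scoped ENNReal NNReal

namespace P073.Top

/-- the selection statement with types of rank at most two -/
def KSEL2 : Prop := ∀ {Ω : Set E3} {f : E3 → E3} {F : E3 → (E3 →L[ℝ] E3)} {p : ℝ} {δ : ℝ≥0∞}
  (τ : ℕ → ℝ), IsOpen Ω → Bornology.IsBounded Ω → ContinuousOn f Ω →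
  Vale.Agent.P073.HB.WeakDeriv volume Ω f F → 1 ≤ p →
  AEStronglyMeasurable F (volume.restrict Ω) → ∫⁻ x in Ω, ‖F x‖ₑ ^ p < ⊤ → 0 < δ →
  (∀ b, 0 < τ b) →
  ∃ (N : ℕ) (T : Fin N → Ty) (K : Fin N → Set E3) (K₃ : Set E3) (b₃ : ℕ) (r₁ : ℝ), 0 < r₁ ∧
    (∀ j, IsCompact (K j) ∧ cthickening r₁ (K j) ⊆ Ω ∧
      ∀ x ∈ K j, ‖F x - (T j).A‖ ≤ τ (T j).b ∧ MaxLe F (T j).A x r₁ (τ (T j).b)) ∧
    (∀ j j', j ≠ j' → ∀ x ∈ K j, ∀ y ∈ K j', r₁ ≤ dist x y) ∧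
    (∀ j, (T j).r ≤ 2 ∧ volume (f '' K j) = 0) ∧
    IsCompact K₃ ∧ cthickening r₁ K₃ ⊆ Ω ∧ (∀ j, ∀ x ∈ K₃, ∀ y ∈ K j, r₁ ≤ dist x y) ∧
    1 ≤ b₃ ∧ (∀ x ∈ K₃, ‖F x‖ ≤ b₃ ∧ ∀ u, ‖u‖ ≤ b₃ * ‖F x u‖) ∧
    ContinuousOn F (K₃ ∪ ⋃ j, K j) ∧
    (∀ t, 0 < t → ∃ r, 0 < r ∧ ∀ x ∈ K₃ ∪ ⋃ j, K j, MaxLe F (F x) x r t) ∧
    ∫⁻ x in Ω \ (K₃ ∪ ⋃ j, K j), ‖F x‖ₑ ^ p ≤ δ

namespace Ks

theorem tri0 {V : Type} [NormedAddCommGroup V] {F : E3 → V} {A B : V} {S : Set E3} {t s : ℝ}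
    (ht : 0 ≤ t) (h : ∫⁻ y in S, ‖F y - A‖ₑ ≤ ENNReal.ofReal t * volume S) (hs : ‖A - B‖ ≤ s) :
    ∫⁻ y in S, ‖F y - B‖ₑ ≤ ENNReal.ofReal (t + s) * volume S := by
  calc ∫⁻ y in S, ‖F y - B‖ₑ ≤ ∫⁻ y in S, (‖F y - A‖ₑ + ENNReal.ofReal s) := by
        refine lintegral_mono fun y => ?_
        have : F y - B = (F y - A) + (A - B) := by abel
        rw [this]
        refine (enorm_add_le _ _).trans (add_le_add le_rfl ?_)
        rw [← ofReal_norm]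
        exact ENNReal.ofReal_le_ofReal hs
    _ = (∫⁻ y in S, ‖F y - A‖ₑ) + ENNReal.ofReal s * volume S := by
        rw [lintegral_add_right _ measurable_const, setLIntegral_const]
    _ ≤ ENNReal.ofReal t * volume S + ENNReal.ofReal s * volume S := add_le_add h le_rfl
    _ = _ := by rw [← add_mul, ENNReal.ofReal_add ht ((norm_nonneg _).trans hs)]

theorem maxLe_tri {F : E3 → (E3 →L[ℝ] E3)} {A B : E3 →L[ℝ] E3} {x : E3} {r t s : ℝ}
    (ht : 0 ≤ t) (h : MaxLe F A x r t) (hs : ‖A - B‖ ≤ s) : MaxLe F B x r (t + s) :=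
  fun ρ hρ => tri0 ht (h ρ hρ) hs

theorem maxLe_le {F : E3 → (E3 →L[ℝ] E3)} {A : E3 →L[ℝ] E3} {x : E3} {r t s : ℝ}
    (h : MaxLe F A x r t) (hs : t ≤ s) : MaxLe F A x r s := fun ρ hρ =>
  (h ρ hρ).trans (mul_le_mul_left (ENNReal.ofReal_le_ofReal hs) _)

variable {Ω : Set E3} {f : E3 → E3} {F : E3 → (E3 →L[ℝ] E3)} {p : ℝ} {δ : ℝ≥0∞}

/-- one level of the approximation by locally constant maps -/
theorem level (hΩ : IsOpen Ω) (hb : Bornology.IsBounded Ω) (hp : 1 ≤ p)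
    (hF : AEStronglyMeasurable F (volume.restrict Ω)) (hi : ∫⁻ x in Ω, ‖F x‖ₑ ^ p < ⊤)
    (hδ : 0 < δ) {t : ℝ} (ht : 0 < t) : ∃ (U : Set E3) (r : ℝ), 0 < r ∧ IsCompact U ∧
    (∀ x ∈ U, ball x r ⊆ Ω) ∧
    (∀ x ∈ U, ∃ A, ∀ y ∈ U, dist x y < r → ‖F y - A‖ ≤ t ∧ MaxLe F A y r t) ∧
    ∫⁻ x in Ω \ U, ‖F x‖ₑ ^ p ≤ δ := by
  have hδ2 : 0 < δ / 2 := ENNReal.half_pos hδ.ne'
  obtain ⟨c, hc, hcδ⟩ := ENNReal.exists_nnreal_pos_mul_lt (a := volume Ω) hb.measure_lt_top.ne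
    hδ2.ne'
  obtain ⟨N, T, K, r, hr, h1, h2, h3⟩ := ksel (τ₀ := min c 1) (fun _ => t) hΩ hb hp hF hi
    (lt_min hc one_pos) hδ2 fun _ => ht
  refine ⟨⋃ j, K j, r, hr, isCompact_iUnion fun j => (h1 j).1, fun x hx => ?_, fun x hx => ?_,
    h3.trans ?_⟩
  · obtain ⟨j, hj⟩ := mem_iUnion.1 hx
    exact (ball_subset_closedBall.trans (closedBall_subset_cthickening hj r)).trans (h1 j).2.1
  · obtain ⟨j, hj⟩ := mem_iUnion.1 hx
    refine ⟨(T j).A, fun y hy hxy => ?_⟩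
    obtain ⟨j', hj'⟩ := mem_iUnion.1 hy
    obtain rfl : j = j' := by
      by_contra hne
      exact absurd (h2 j j' hne x hj y hj') (not_le.2 hxy)
    exact (h1 j).2.2 y hj'
  · refine le_trans (add_le_add ?_ le_rfl) (ENNReal.add_halves δ).le
    refine le_trans (mul_le_mul_left ?_ _) hcδ.le
    have h4 : ENNReal.ofReal (min (c : ℝ) 1) ≤ 1 := ENNReal.ofReal_le_one.2 (min_le_right _ _)
    refine (ENNReal.rpow_le_rpow_of_exponent_ge h4 hp).trans ?_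
    rw [ENNReal.rpow_one, ← ENNReal.ofReal_coe_nnreal]
    exact ENNReal.ofReal_le_ofReal (min_le_left _ _)

/-- a compact set on which the derivative is continuous and is a derivative within the set -/
theorem exists_good (hΩ : IsOpen Ω) (hb : Bornology.IsBounded Ω) (hf : ContinuousOn f Ω)
    (hw : Vale.Agent.P073.HB.WeakDeriv volume Ω f F) (hp : 1 ≤ p)
    (hF : AEStronglyMeasurable F (volume.restrict Ω)) (hi : ∫⁻ x in Ω, ‖F x‖ₑ ^ p < ⊤)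
    (hδ : 0 < δ) : ∃ L : Set E3, IsCompact L ∧ L ⊆ Ω ∧ ContinuousOn F L ∧
    (∀ t, 0 < t → ∃ r, 0 < r ∧ ∀ x ∈ L, MaxLe F (F x) x r t) ∧
    (∀ x ∈ L, HasFDerivWithinAt f (F x) L x) ∧ ∫⁻ x in Ω \ L, ‖F x‖ₑ ^ p ≤ δ := by
  obtain ⟨ε, hε, hεs⟩ := ENNReal.exists_pos_sum_of_countable' hδ.ne' ℕ
  choose U r hr hU hball hA hint using fun k : ℕ =>
    level hΩ hb hp hF hi (hε k) (Nat.one_div_pos_of_nat (n := k))
  have key : ∀ t : ℝ, 0 < t → ∃ ρ, 0 < ρ ∧ (∀ x ∈ ⋂ k, U k, ball x ρ ⊆ Ω) ∧ ∀ x ∈ ⋂ k, U k, ∃ A,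
      ∀ y ∈ ⋂ k, U k, dist x y < ρ → ‖F y - A‖ ≤ t ∧ MaxLe F A y ρ t := by
    intro t ht
    obtain ⟨k, hk⟩ := exists_nat_one_div_lt ht
    refine ⟨r k, hr k, fun x hx => hball k x (mem_iInter.1 hx k), fun x hx => ?_⟩
    obtain ⟨A, hA'⟩ := hA k x (mem_iInter.1 hx k)
    exact ⟨A, fun y hy hxy => ⟨(hA' y (mem_iInter.1 hy k) hxy).1.trans hk.le,
      maxLe_le (hA' y (mem_iInter.1 hy k) hxy).2 hk.le⟩⟩
  refine ⟨⋂ k, U k, (hU 0).of_isClosed_subset (isClosed_iInter fun k => (hU k).isClosed)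
    (iInter_subset _ 0), fun x hx => hball 0 x (mem_iInter.1 hx 0) (mem_ball_self (hr 0)),
    ?_, fun t ht => ?_, fun x hx => ?_, ?_⟩
  · refine Metric.continuousOn_iff.2 fun x hx t ht => ?_
    obtain ⟨ρ, hρ, -, h⟩ := key (t / 3) (by positivity)
    obtain ⟨A, h⟩ := h x hx
    refine ⟨ρ, hρ, fun y hy hxy => ?_⟩
    have h1 := (h x hx (by rwa [dist_self])).1
    have h2 := (h y hy (by rwa [dist_comm])).1
    rw [← dist_eq_norm] at h1 h2
    have h3 := dist_triangle_right (F y) (F x) A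
    linarith
  · obtain ⟨ρ, hρ, -, h⟩ := key (t / 2) (by positivity)
    refine ⟨ρ, hρ, fun x hx => ?_⟩
    obtain ⟨A, h⟩ := h x hx
    have h1 := h x hx (by rwa [dist_self])
    have h2 := maxLe_tri (B := F x) (half_pos ht).le h1.2 ((norm_sub_rev _ _).trans_le h1.1)
    rwa [add_halves] at h2
  · obtain ⟨C, hC, hH⟩ := haj
    rw [hasFDerivWithinAt_iff_isLittleO, Asymptotics.isLittleO_iff]
    intro c hc
    obtain ⟨ρ, hρ, hB, h⟩ := key (c / (C + 1)) (by positivity)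
    obtain ⟨A, h⟩ := h x hx
    have h1 := h x hx (by rwa [dist_self])
    have e : 3 * (ρ / 3) = ρ := by ring
    filter_upwards [self_mem_nhdsWithin, mem_nhdsWithin_of_mem_nhds
      (closedBall_mem_nhds x (show 0 < ρ / 3 by positivity))] with y hy hxy
    rw [mem_closedBall, dist_comm] at hxy
    have h2 := h y hy (by linarith)
    have h3 := hH A (r := ρ / 3) (τ := c / (C + 1)) hΩ hf
      (Ksel.integrableOn hb hp hF hi).locallyIntegrableOn hw (by positivity)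
      (e.symm ▸ hB x hx) (e.symm ▸ hB y hy) (e.symm ▸ h1.2) (e.symm ▸ h2.2) hxy
    have h4 : ‖(F x - A) (y - x)‖ ≤ c / (C + 1) * ‖y - x‖ :=
      ((F x - A).le_opNorm _).trans (mul_le_mul_of_nonneg_right h1.1 (norm_nonneg _))
    have h5 : f y - f x - F x (y - x) = (f y - f x - A (y - x)) - (F x - A) (y - x) := by
      rw [sub_apply]
      abel
    rw [h5]
    refine (norm_sub_le _ _).trans ((add_le_add h3 h4).trans (le_of_eq ?_))
    field_simp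
  · rw [sdiff_iInter]
    exact (lintegral_iUnion_le _ _).trans ((ENNReal.tsum_le_tsum hint).trans hεs.le)

theorem det_ne {B : E3 →L[ℝ] E3} (h : ∀ u, B u = 0 → u = 0) : B.det ≠ 0 := fun h0 => by
  have h1 := (LinearMap.det_eq_zero_iff_ker_ne_bot (f := (B : E3 →ₗ[ℝ] E3))).1 h0
  exact h1 (LinearMap.ker_eq_bot'.2 h)

theorem low_of_det {B : E3 →L[ℝ] E3} (h : B.det ≠ 0) : ∃ c : ℝ, ∀ u, ‖u‖ ≤ c * ‖B u‖ := by
  obtain ⟨c, hc⟩ := Typ.exists_low B 3 fun u _ hu => by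
    have h1 := (LinearMap.det_eq_zero_iff_ker_ne_bot (f := (B : E3 →ₗ[ℝ] E3))).not.1 h
    exact LinearMap.ker_eq_bot'.1 (not_not.1 h1) u hu
  exact ⟨c, fun u => hc u fun i hi => absurd i.2 (not_lt.2 hi)⟩

open Typ in
/-- singular matrices are approximated by types of rank at most two -/
theorem type2 (τ : ℕ → ℝ) (hτ : ∀ b, 0 < τ b) (B : E3 →L[ℝ] E3) (hB : B ≠ 0) (hd : B.det = 0) :
    ∃ T : Ty, T.r ≤ 2 ∧ ‖T.A - B‖ < τ T.b := by
  obtain ⟨r, L₀, r1, r3, hk, hi⟩ := exists_basis B hB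
  have r2 : r ≤ 2 := by
    by_contra hr
    refine det_ne (fun u hu => ?_) hd
    have h1 := hi (L₀.symm u) (fun i h => absurd i.2 (by omega)) (by simpa using hu)
    simpa using h1
  obtain ⟨c, hc⟩ := exists_low (B.comp (L₀ : E3 →L[ℝ] E3)) r hi
  obtain ⟨b, hb⟩ := exists_nat_gt (max (max 1 c) (max ‖B‖ (max ‖(L₀ : E3 →L[ℝ] E3)‖
    ‖(L₀.symm : E3 →L[ℝ] E3)‖)))
  simp only [max_lt_iff] at hb
  obtain ⟨⟨b1, b2⟩, b3, b4, b5⟩ := hb
  have hA : Continuous fun q : (E3 →L[ℝ] E3) × (E3 →L[ℝ] E3) =>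
      (B.comp (L₀ : E3 →L[ℝ] E3)).comp q.2 := continuous_const.clm_comp continuous_snd
  have h0 : (B.comp (L₀ : E3 →L[ℝ] E3)).comp (L₀.symm : E3 →L[ℝ] E3) = B := by
    ext x i
    simp
  have hO : {q : (E3 →L[ℝ] E3) × (E3 →L[ℝ] E3) | ‖q.1‖ < b ∧ ‖q.2‖ < b ∧
      ‖(B.comp (L₀ : E3 →L[ℝ] E3)).comp q.2‖ < b ∧
      ‖(B.comp (L₀ : E3 →L[ℝ] E3)).comp q.2 - B‖ < τ b} ∈
      𝓝 ((L₀ : E3 →L[ℝ] E3), (L₀.symm : E3 →L[ℝ] E3)) := by
    refine IsOpen.mem_nhds ?_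
      ⟨b4, b5, by rw [h0]; exact b3, by rw [h0, sub_self, norm_zero]; exact hτ b⟩
    exact (isOpen_lt continuous_fst.norm continuous_const).inter
      ((isOpen_lt continuous_snd.norm continuous_const).inter
        ((isOpen_lt hA.norm continuous_const).inter
          (isOpen_lt (hA.sub continuous_const).norm continuous_const)))
  obtain ⟨L, ⟨k1, k2, k3, k4⟩, hq⟩ := exists_rat L₀ hO
  refine ⟨⟨r, b, L, (B.comp (L₀ : E3 →L[ℝ] E3)).comp (L.symm : E3 →L[ℝ] E3), r1, r3, ?_, hq,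
    k1.le, k2.le, k3.le, fun i h => ?_, fun u hu => ?_⟩, r2, k4⟩
  · exact_mod_cast b1.le
  · simpa using hk i h
  · refine (hc u hu).trans ?_
    have : ((B.comp (L₀ : E3 →L[ℝ] E3)).comp (L.symm : E3 →L[ℝ] E3)) (L u) =
        (B.comp (L₀ : E3 →L[ℝ] E3)) u := by simp
    rw [this]
    exact mul_le_mul_of_nonneg_right b2.le (norm_nonneg _)

/-- countably many types of rank at most two suffice -/
theorem exists_seq2 (τ : ℕ → ℝ) (hτ : ∀ b, 0 < τ b) : ∃ T : ℕ → Ty, (∀ n, (T n).r ≤ 2) ∧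
    ∀ B : E3 →L[ℝ] E3, B ≠ 0 → B.det = 0 → ∃ n, ‖B - (T n).A‖ < τ (T n).b := by
  obtain ⟨S, hS, hU⟩ := TopologicalSpace.isOpen_iUnion_countable
    (fun T : {T : Ty // T.r ≤ 2} => ball T.1.A (τ T.1.b)) fun _ => isOpen_ball
  have key : ∀ B : E3 →L[ℝ] E3, B ≠ 0 → B.det = 0 → ∃ T ∈ S, ‖B - T.1.A‖ < τ T.1.b := by
    intro B hB hd
    obtain ⟨T, hr, hT⟩ := type2 τ hτ B hB hd
    have : B ∈ ⋃ T : {T : Ty // T.r ≤ 2}, ball T.1.A (τ T.1.b) := by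
      refine mem_iUnion.2 ⟨⟨T, hr⟩, ?_⟩
      rw [mem_ball, dist_comm, dist_eq_norm]
      exact hT
    rw [← hU] at this
    obtain ⟨T', hT', hB'⟩ := mem_iUnion₂.1 this
    exact ⟨T', hT', by rwa [mem_ball, dist_eq_norm] at hB'⟩
  have hne : S.Nonempty := by
    obtain ⟨T, hT, -⟩ := key (dgs {0} 0) (by
      intro h0
      have := congrArg (fun L : E3 →L[ℝ] E3 => L (fun _ => 1) 1) h0
      simp [dgs] at this) (by
      by_contra h
      obtain ⟨c, hc⟩ := low_of_det h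
      have h1 : dgs {0} 0 (Pi.single 0 1) = 0 := by
        ext i
        fin_cases i <;> simp [dgs]
      have h2 := hc (Pi.single 0 1)
      rw [h1, norm_zero, mul_zero, Pi.norm_single, norm_one] at h2
      linarith)
    exact ⟨T, hT⟩
  obtain ⟨T, hT⟩ := hS.exists_eq_range hne
  refine ⟨fun n => (T n).1, fun n => (T n).2, fun B hB hd => ?_⟩
  obtain ⟨T', hT', hB'⟩ := key B hB hd
  rw [hT] at hT'
  obtain ⟨n, rfl⟩ := hT'
  exact ⟨n, hB'⟩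

/-- exhaustion of a measurable set -/
theorem exhaust {ν : Measure E3} [IsFiniteMeasure ν] {S : Set E3} (hS : MeasurableSet S)
    {P : ℕ → Set E3} (hP : ∀ n, MeasurableSet (P n)) (hm : Monotone P)
    (h : ∀ᵐ x ∂ν, x ∈ S → x ∈ ⋃ n, P n) {ε : ℝ≥0∞} (hε : 0 < ε) : ∃ n, ν (S \ P n) ≤ ε := by
  have ht := tendsto_measure_iInter_atTop (μ := ν) (s := fun n => S \ P n)
    (fun n => (hS.diff (hP n)).nullMeasurableSet)
    (fun m m' h' => sdiff_subset_sdiff_right (hm h')) ⟨0, measure_ne_top _ _⟩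
  have h0 : ν (⋂ n, S \ P n) = 0 := by
    refine measure_mono_null (fun x hx => ?_) (ae_iff.1 h)
    intro h'
    obtain ⟨n, hn⟩ := mem_iUnion.1 (h' (mem_iInter.1 hx 0).1)
    exact (mem_iInter.1 hx n).2 hn
  rw [h0] at ht
  obtain ⟨n, hn⟩ := (ht.eventually (gt_mem_nhds hε)).exists
  exact ⟨n, le_of_lt hn⟩

end Ks

theorem ksel2 : KSEL2 := by
  intro Ω f F p δ τ hΩ hb hf hw hp hF hi hδ hτ
  obtain ⟨e, he, hes⟩ := ENNReal.exists_pos_sum_of_countable' hδ.ne' (Fin 4)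
  obtain ⟨L, hL, hLΩ, hFc, hmax, hder, hLi⟩ := Ks.exists_good hΩ hb hf hw hp hF hi (he 0)
  obtain ⟨T, hT2, hT⟩ := Ks.exists_seq2 (fun b => τ b / 2) fun b => half_pos (hτ b)
  set ν : Measure E3 := (volume.restrict Ω).withDensity fun x => ‖F x‖ₑ ^ p with hν
  have : IsFiniteMeasure ν := isFiniteMeasure_withDensity hi.ne
  have hνe : ∀ S, MeasurableSet S → S ⊆ Ω → ∫⁻ x in S, ‖F x‖ₑ ^ p = ν S := fun S hm hS => by
    rw [hν, withDensity_apply _ hm, Measure.restrict_restrict hm, inter_eq_left.2 hS]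
  have hcl : ∀ C : Set (E3 →L[ℝ] E3), IsClosed C → IsClosed (L ∩ F ⁻¹' C) := fun C hC =>
    hFc.preimage_isClosed_of_isClosed hL.isClosed hC
  set L₀ : Set E3 := L ∩ F ⁻¹' {B | B.det = 0} with hL₀
  have hL₀c : IsClosed L₀ :=
    hcl _ (isClosed_eq ContinuousLinearMap.continuous_det continuous_const)
  set E : ℕ → Set E3 := fun n => L₀ ∩ (L ∩ F ⁻¹' closedBall (T n).A (τ (T n).b / 2)) with hE
  have hEm : ∀ n, MeasurableSet (E n) := fun n =>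
    (hL₀c.inter (hcl _ isClosed_closedBall)).measurableSet
  set D : ℕ → Set E3 := fun b =>
    L ∩ F ⁻¹' {B | ‖B‖ ≤ (b + 1 : ℕ) ∧ ∀ u, ‖u‖ ≤ (b + 1 : ℕ) * ‖B u‖} with hD
  have hDc : ∀ b, IsClosed (D b) := fun b => by
    refine hcl _ ((isClosed_le continuous_norm continuous_const).inter ?_)
    change IsClosed {B : E3 →L[ℝ] E3 | ∀ u, ‖u‖ ≤ ((b + 1 : ℕ) : ℝ) * ‖B u‖}
    rw [ofPred_forall]
    exact isClosed_iInter fun u => isClosed_le continuous_const (by fun_prop)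
  obtain ⟨b, hbν⟩ := Ks.exhaust (ν := ν) (hL.measurableSet.diff hL₀c.measurableSet)
    (fun b => (hDc b).measurableSet) (fun b b' h x hx => by
      have h1 : ((b + 1 : ℕ) : ℝ) ≤ (b' + 1 : ℕ) := by exact_mod_cast Nat.succ_le_succ h
      exact ⟨hx.1, hx.2.1.trans h1, fun u => (hx.2.2 u).trans
        (mul_le_mul_of_nonneg_right h1 (norm_nonneg _))⟩)
    (Eventually.of_forall fun x hx => by
      obtain ⟨c, hc⟩ := Ks.low_of_det fun h => hx.2 ⟨hx.1, h⟩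
      obtain ⟨b, hb⟩ := exists_nat_ge (max c ‖F x‖)
      have h1 : (b : ℝ) ≤ (b + 1 : ℕ) := by exact_mod_cast Nat.le_succ b
      exact mem_iUnion.2 ⟨b, hx.1, ((le_max_right _ _).trans hb).trans h1, fun u => (hc u).trans
        (mul_le_mul_of_nonneg_right (((le_max_left _ _).trans hb).trans h1) (norm_nonneg _))⟩)
    (he 1)
  obtain ⟨N, hNν⟩ := Ks.exhaust (ν := ν) hL₀c.measurableSet
    (P := fun m => ⋃ j : Fin m, disjointed E j)
    (fun m => MeasurableSet.iUnion fun j => MeasurableSet.disjointed hEm j)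
    (fun m m' h x hx => by
      obtain ⟨j, hj⟩ := mem_iUnion.1 hx
      exact mem_iUnion.2 ⟨⟨j, j.2.trans_le h⟩, hj⟩)
    (by
      rw [hν, ae_withDensity_iff' (hF.enorm.pow_const p)]
      refine Eventually.of_forall fun x hx0 hx => ?_
      have hF0 : F x ≠ 0 := by
        intro h0
        apply hx0
        have : ‖F x‖ₑ = 0 := by
          rw [← ofReal_norm, h0, norm_zero, ENNReal.ofReal_zero]
        rw [this]
        exact ENNReal.zero_rpow_of_pos (by linarith)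
      have hxE : x ∈ ⋃ n, disjointed E n := by
        rw [iUnion_disjointed]
        obtain ⟨n, hn⟩ := hT _ hF0 hx.2
        exact mem_iUnion.2 ⟨n, hx, hx.1, mem_closedBall_iff_norm.2 hn.le⟩
      obtain ⟨n, hn⟩ := mem_iUnion.1 hxE
      exact mem_iUnion.2 ⟨n + 1, mem_iUnion.2 ⟨⟨n, Nat.lt_succ_self n⟩, hn⟩⟩)
    (he 2)
  obtain ⟨ε, hε, hεs⟩ := ENNReal.exists_pos_sum_of_countable' (he 3).ne' (Fin N)
  have hK : ∀ j : Fin N, ∃ K, K ⊆ disjointed E j ∧ IsCompact K ∧ ν (disjointed E j \ K) < ε j :=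
    fun j => (MeasurableSet.disjointed hEm j).exists_isCompact_sdiff_lt (measure_ne_top _ _)
      (hε j).ne'
  choose K hKS hKc hKν using hK
  have hKE : ∀ j : Fin N, K j ⊆ E j := fun j => (hKS j).trans (disjointed_subset E j)
  have hDk : IsCompact (D b) := hL.of_isClosed_subset (hDc b) inter_subset_left
  have hdis : Disjoint (D b) L₀ := disjoint_left.2 fun x hx hx' =>
    Ks.det_ne (fun u hu => by
      have h1 := hx.2.2 u
      rw [hu, norm_zero, mul_zero] at h1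
      exact norm_le_zero_iff.1 h1) hx'.2
  choose ρ hρ hρM using fun j : Fin N => hmax _ (half_pos (hτ (T j).b))
  obtain ⟨δ₁, hδ₁, h1⟩ := hDk.exists_cthickening_subset_open hΩ (inter_subset_left.trans hLΩ)
  obtain ⟨δ₂, hδ₂, h2⟩ := Metric.exists_pos_forall_lt_edist hDk hL₀c hdis
  have hev : ∀ᶠ R in 𝓝[>] (0:ℝ), ∀ j, R ≤ ρ j := eventually_all.2 fun j => by
    filter_upwards [Ioc_mem_nhdsGT (hρ j)] with R hR using hR.2
  have hev1 : ∀ᶠ R in 𝓝[>] (0:ℝ), R ∈ Ioc 0 δ₁ := Ioc_mem_nhdsGT hδ₁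
  have hev2 : ∀ᶠ R in 𝓝[>] (0:ℝ), R ∈ Ioc (0:ℝ) δ₂ := Ioc_mem_nhdsGT hδ₂
  obtain ⟨R, hR1, hR2, hR3⟩ := (hev.and (hev1.and hev2)).exists
  obtain ⟨r, hr, hrR, hr1, hr2⟩ := Ksel.exists_radius hΩ hKc
    (fun j x hx => hLΩ (hKE j hx).1.1)
    (fun j j' hj => (disjoint_disjointed E (Fin.val_ne_of_ne hj)).mono (hKS j) (hKS j')) hR2.1
  have hsub : D b ∪ ⋃ j, K j ⊆ L :=
    union_subset inter_subset_left (iUnion_subset fun j x hx => (hKE j hx).1.1)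
  refine ⟨N, fun j => T j, K, D b, b + 1, r, hr, fun j => ⟨hKc j, hr1 j, fun x hx => ?_⟩, hr2,
    fun j => ⟨hT2 j, ?_⟩, hDk, (cthickening_mono (hrR.trans hR2.2) _).trans h1,
    fun j x hx y hy => ?_, Nat.le_add_left 1 b, fun x hx => hx.2, hFc.mono hsub,
    fun t ht => ?_, ?_⟩
  · have h3 : ‖F x - (T j).A‖ ≤ τ (T j).b / 2 := mem_closedBall_iff_norm.1 (hKE j hx).2.2
    refine ⟨h3.trans (half_le_self (hτ _).le), ?_⟩
    have h4 := Ks.maxLe_tri (half_pos (hτ _)).le (hρM j x (hKE j hx).1.1) h3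
    rw [add_halves] at h4
    exact Ksel.maxLe_mono h4 (hrR.trans (hR1 j))
  · exact addHaar_image_eq_zero_of_det_fderivWithin_eq_zero volume (f' := F)
      (fun x hx => (hder x (hKE j hx).1.1).mono fun y hy => (hKE j hy).1.1)
      fun x hx => (hKE j hx).1.2
  · have h3 := h2 x hx y (hKE j hy).1
    rw [edist_nndist, ENNReal.coe_lt_coe] at h3
    exact (hrR.trans hR3.2).trans (le_of_lt h3)
  · obtain ⟨r', hr', h⟩ := hmax t ht
    exact ⟨r', hr', fun x hx => h x (hsub hx)⟩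
  · rw [hνe _ (hΩ.measurableSet.diff ((hDc b).measurableSet.union
      (MeasurableSet.iUnion fun j => (hKc j).measurableSet))) sdiff_subset]
    rw [hνe _ (hΩ.measurableSet.diff hL.measurableSet) sdiff_subset] at hLi
    have hcov : Ω \ (D b ∪ ⋃ j, K j) ⊆ (Ω \ L ∪ (L \ L₀) \ D b) ∪
        (L₀ \ ⋃ j : Fin N, disjointed E j) ∪ ⋃ j : Fin N, (disjointed E j \ K j) := by
      intro x hx
      by_cases h3 : x ∈ ⋃ j : Fin N, disjointed E j
      · obtain ⟨j, hj⟩ := mem_iUnion.1 h3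
        exact Or.inr (mem_iUnion.2 ⟨j, hj, fun hK => hx.2 (Or.inr (mem_iUnion.2 ⟨j, hK⟩))⟩)
      by_cases h4 : x ∈ L₀
      · exact Or.inl (Or.inr ⟨h4, h3⟩)
      by_cases h5 : x ∈ L
      · exact Or.inl (Or.inl (Or.inr ⟨⟨h5, h4⟩, fun h => hx.2 (Or.inl h)⟩))
      · exact Or.inl (Or.inl (Or.inl ⟨hx.1, h5⟩))
    refine (measure_mono hcov).trans (le_trans ?_ hes.le)
    rw [tsum_fintype, Fin.sum_univ_four]
    refine (measure_union_le _ _).trans (add_le_add ((measure_union_le _ _).trans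
      (add_le_add ((measure_union_le _ _).trans (add_le_add hLi hbν)) hNν)) ?_)
    exact (measure_iUnion_le _).trans ((ENNReal.tsum_le_tsum fun j => (hKν j).le).trans hεs.le)

end P073.Top
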